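import Vale.Agent.P354CB.Ez
import Vale.Agent.P354CB40.Inv

/-!
Local isometries between spacetimes: unique continuation, determination by a spacelike slice,
invariance of the induced data.
-/

open scoped ContDiff
open Set Filter Topology Metric

namespace Vale.Agent.P354CB15

open Vale.Agent.P354n
open Vale.Agent.P354I (X Dat)
open Vale.Agent.P354XJ
open Vale.Agent.P354YC
open Vale.Agent.P354CB

variable {M N : Spc} {ψ ψ' : M.pt → N.pt} {e : M.Chart} {x : M.pt}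

theorem li_of {y : R4} (hy : y ∈ tgt e) (h : LM ψ (inv e y)) :
    LI (M.g e) (M.X e) (fun y => ψ (inv e y)) y :=
  ⟨h.1.comp (inv_cont hy), fun e' a => by
    have := h.2 e e' (inv_mem hy) a
    rw [co_inv hy] at this
    exact iso_iff.1 this⟩

theorem ev_inv {P : M.pt → Prop} (he : On e x) (h : ∀ᶠ z in 𝓝 x, P z) :
    ∀ᶠ y in 𝓝 (co e x), y ∈ tgt e ∧ P (inv e y) :=
  Eventually.and ((isOpen_tgt e).mem_nhds (co_mem he))
    ((inv_cont (co_mem he)).eventually (by rwa [inv_co he]))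

theorem back (he : On e x) (h : (fun y => ψ (inv e y)) =ᶠ[𝓝 (co e x)] fun y => ψ' (inv e y)) :
    ψ =ᶠ[𝓝 x] ψ' := by
  filter_upwards [(co_cont he).eventually h, on_nhds he] with z a b
  rwa [inv_co b] at a

theorem rig (hM : St M) (hN : St N) {U C : Set M.pt} {p : M.pt} (hU : IsOpen U)
    (k : ∀ x ∈ U, LM ψ x ∧ LM ψ' x) (s : C ⊆ U) (c : IsPreconnected C) (hp : p ∈ C)
    (e0 : ψ =ᶠ[𝓝 p] ψ') : EqOn ψ ψ' C := fun x hx => by
  refine Eventually.self_of_nhds (p := fun z => ψ z = ψ' z) (c.subset_of_closure_inter_subset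
    isOpen_setOfPred_eventually_nhds ⟨p, hp, e0⟩ (fun z a => ?_) hx)
  obtain ⟨e, he⟩ := M.cover z
  obtain ⟨r, r0, hr⟩ := Metric.eventually_nhds_iff_ball.1
    (ev_inv (P := fun w => w ∈ U) he (hU.mem_nhds (s a.2)))
  obtain ⟨q, ⟨q0, q1⟩, q2⟩ := mem_closure_iff_nhds.1 a.1 _
    ((on_nhds he).and ((co_cont he).eventually (ball_mem_nhds _ r0)))
  replace q2 : ∀ᶠ w in 𝓝 q, ψ w = ψ' w := q2
  exact back he (mem_of_superset (ball_mem_nhds _ r0) (rigM hN.lor (hM.lor e) isOpen_ball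
    (convex_ball _ r).isPreconnected (fun y b => ⟨(hr y b).1, li_of (hr y b).1 (k _ (hr y b).2).1,
      li_of (hr y b).1 (k _ (hr y b).2).2⟩) q1 ((ev_inv q0 q2).mono fun _ b => b.2)))

variable {j : X → M.pt} {d : Dat} {y : X}

theorem jet (hM : St M) (hN : St N) (c : ContinuousAt j y) (he : On e (j y))
    (s : ContDiffAt ℝ ∞ (fun z => co e (j z)) y) (hd : (d.h y).PosDef)
    (I : IndAt (M.g e) (M.X e) (fun z => co e (j z)) d y)
    (k : ∀ᶠ x in 𝓝 (j y), LM ψ x ∧ LM ψ' x) (e0 : ∀ᶠ z in 𝓝 y, ψ (j z) = ψ' (j z)) :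
    ψ =ᶠ[𝓝 (j y)] ψ' := by
  obtain ⟨n, n1, n2, S⟩ := I.sp (hM.lor e) (co_mem he) hd
  refine back he (jetM hN.lor (hM.lor e) (J := fun z => co e (j z)) (s.differentiableAt (by simp))
    S n1 n2 ((ev_inv he k).mono fun _ b => ⟨b.1, li_of b.1 b.2.1, li_of b.1 b.2.2⟩) ?_)
  filter_upwards [e0, c.eventually (on_nhds he)] with z a b
  rwa [inv_co b]

theorem ind (hM : St M) (hN : St N) {e' : N.Chart} (c : ContinuousAt j y) (he : On e (j y))
    (s : ContDiffAt ℝ ∞ (fun z => co e (j z)) y)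
    (I : IndAt (M.g e) (M.X e) (fun z => co e (j z)) d y) (k : ∀ᶠ x in 𝓝 (j y), LM ψ x)
    (he' : On e' (ψ (j y))) : ContDiffAt ℝ ∞ (fun z => co e' (ψ (j z))) y ∧
      IndAt (N.g e') (N.X e') (fun z => co e' (ψ (j z))) d y := by
  obtain ⟨W, w1, w2, w3⟩ := _root_.eventually_nhds_iff.1
    (ev_inv he (k.and (k.self_of_nhds.1.eventually (on_nhds he'))))
  have i : ∀ p ∈ W, Is (M.g e) (M.X e) (N.g e') (N.X e') (fun y => co e' (ψ (inv e y))) p :=
    fun p a => (li_of (w1 p a).1 (w1 p a).2.1).iso e' (w1 p a).2.2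
  have q : ∀ᶠ z in 𝓝 y, co e' (ψ (inv e (co e (j z)))) = co e' (ψ (j z)) :=
    (c.eventually (on_nhds he)).mono fun z b => by rw [inv_co b]
  have s' : ContDiffAt ℝ ∞ (fun z => co e' (ψ (inv e (co e (j z))))) y :=
    ContDiffAt.comp (g := fun y => co e' (ψ (inv e y))) y (i _ w3).1 s
  exact ⟨s'.congr_of_eventuallyEq (q.mono fun _ b => b.symm),
    I.pull (hM.lor e) (hN.lor e') (pull_of (hM.lor e) (hN.lor e') w2 fun p a =>
      ⟨(w1 p a).1, co_mem (w1 p a).2.2, i p a⟩) (co_mem he) w3 (i _ w3).2.2 s q⟩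

/-- The assembly, from the inverse function theorem. -/
theorem lk2_of (hi : ∀ {M N : Spc}, St M → St N → ∀ {ψ : M.pt → N.pt} {x},
    (∀ᶠ z in 𝓝 x, LM ψ z) → ∃ (W : Set M.pt) (φ : N.pt → M.pt), IsOpen W ∧ x ∈ W ∧
      IsOpen (ψ '' W) ∧ ∀ z ∈ W, LM ψ z ∧ φ (ψ z) = z ∧ LM φ (ψ z)) : LK2 :=
  ⟨hi, fun hM hN _ _ _ _ _ => rig hM hN, fun hM hN _ _ _ _ _ _ => jet hM hN,
    fun hM hN _ _ _ _ _ _ => ind hM hN⟩

theorem lk2 : LK2 := lk2_of P354CB40.inv

end Vale.Agent.P354CB15
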